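import Vale.Agent.P275T.Stmt
import Vale.Agent.P275AD.Higgs

/-!
# P275, moduli topology: families of Higgs bundles against families of cocycles
-/

set_option linter.unusedSectionVars false

open scoped Matrix.Norms.Operator Topology ContDiff Manifold
open Filter Set Matrix Metric
open Vale.Agent.P275ST (ctr loc jac VB Higgs)
open Vale.Agent.P275GC Vale.Agent.P275GC.At Vale.Agent.P275NA Vale.Agent.P275AD

noncomputable section

namespace Vale.Agent.P275T

variable {C : Type} [TopologicalSpace C] [ChartedSpace ℂ C] [IsManifold 𝓘(ℂ) ω C] {n : ℕ}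
  {D : C →₀ ℤ} {A : At C} {T : Type} [TopologicalSpace T]

/-- frames on the discs of an atlas determine a cocycle and a Higgs field -/
theorem ad_of_un (ok : Ok A) (E : Higgs C n D) {σ : Fm A (Mn n)}
    (hσ : ∀ i, ∀ z ∈ ball (0 : ℂ) A.R, Un (fun w => (gam A E.toVB i z w)⁻¹ * σ i w) z) :
    ∃ g a, Ad A E g a σ := by
  have nd : ∀ i, ∀ z ∈ ball (0 : ℂ) A.R, Nd (σ i) z := fun i z hz =>
    Eventually.mono (hσ i z hz).nd fun _ a => by rw [det_mul] at a; exact right_ne_zero_of_mul a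
  obtain ⟨g, b, c⟩ := cc_of nd fun i j z h => by
    refine ((hσ i z h.1).inv.mul ((hσ j _ (tr_ball h)).comp (an_tr h) (bi_tr h).ne)).ho.congr ?_
    filter_upwards [gam_nd ok E.toVB (i := i) h.1, ev_O h] with w d e
    simp only [gam, pt_tr h, pt_tr e, Matrix.mul_inv_rev, nonsing_inv_nonsing_inv _ d.isUnit,
      Matrix.mul_assoc, mul_nonsing_inv_cancel_left _ _ d.isUnit]
  have h : Fr A E.toVB g σ := ⟨b, fun i z hz => un_iff.2 (hσ i z hz), c⟩
  have k : ∀ i, ∀ z ∈ ball (0 : ℂ) A.R, _ := fun i z hz => (th_iff (i := i) ok h hz).1 (E.hol _)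
  refine ⟨g, fun i => hx fun w => (σ i w)⁻¹ * (jc (A.e i) w • E.θ (pt A i w)) * σ i w, h,
    an_of_hl fun i z hz => (k i z hz).an, fun i z hz => ?_⟩
  filter_upwards [(k i z hz).eq, h.nd (i := i) hz] with w e1 e2
  rw [← e1, Matrix.mul_assoc, mul_nonsing_inv_cancel_left _ _ e2.isUnit]

/-- a family of Higgs bundles read in an atlas of small discs -/
theorem Fam.ad {E : T → Higgs C n D} (h : Fam E) (t₀ : T) :
    ∃ U : C → Set C, (∀ x, U x ∈ 𝓝 x) ∧ ∀ A : At C, Ok A → (∀ i, ∃ x, (A.e i).source ⊆ U x) →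
      ∃ V ∈ 𝓝 t₀, ∃ (g : T → Cy A (Mn n)) (a σ : T → Fm A (Mn n)),
        (∀ t ∈ V, Ad A (E t) (g t) (a t) (σ t)) ∧
        (∀ i j, ContinuousOn (fun p : T × ℂ => g p.1 i j p.2) (V ×ˢ A.O i j)) ∧
        ∀ i, ContinuousOn (fun p : T × ℂ => a p.1 i p.2) (V ×ˢ ball 0 A.R) := by
  obtain ⟨N, s, a, c, h⟩ := h
  choose V hV W hW sub using fun x : C => mem_nhds_prod_iff.1 (h (t₀, x) (t₀, x)).1
  refine ⟨fun x => W x ∩ (chartAt ℂ x).source, fun x => inter_mem (hW x)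
    (chart_source_mem_nhds ℂ x), fun A ok hA => ?_⟩
  choose k hk using hA
  have m : ∀ t ∈ ⋂ i, V (k i), ∀ i x, x ∈ (A.e i).source → (t, x) ∈ N (t₀, k i) :=
    fun t ht i x hx => sub _ ⟨mem_iInter.1 ht i, (hk i hx).1⟩
  have ex : ∀ t, ∃ g a, t ∈ ⋂ i, V (k i) →
      Ad A (E t) g a fun i w => s (t₀, k i) t (pt A i w) := fun t => by
    by_cases ht : t ∈ ⋂ i, V (k i)
    · obtain ⟨g, a, b⟩ := ad_of_un ok (E t) (σ := fun i w => s (t₀, k i) t (pt A i w))
        fun i z hz => ((ok i).un (F := fun y => ((E t).g (pt A i z) y)⁻¹ * s (t₀, k i) t y)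
          (mem_tgt.2 hz)).2 (un_iff.1 ((h _ _).2.2.2 t _
            ⟨m t ht i _ (map_tgt hz), m t ht i _ (map_tgt hz)⟩).1)
      exact ⟨g, a, fun _ => b⟩
    · exact ⟨0, 0, fun a => (ht a).elim⟩
  choose g b ad using ex
  have cp : ∀ i, ContinuousOn (fun p : T × ℂ => (p.1, pt A i p.2))
      ((⋂ i, V (k i)) ×ˢ ball 0 A.R) := fun i =>
    continuousOn_fst.prodMk ((cont_symm i).comp continuousOn_snd fun _ a => a.2)
  have sl : ∀ {f : T × ℂ → Mn n} {O : Set ℂ} {t : T} {z : ℂ}, ContinuousOn f ((⋂ i, V (k i)) ×ˢ O) →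
      t ∈ ⋂ i, V (k i) → O ∈ 𝓝 z → ContinuousAt (fun w => f (t, w)) z := fun hf ht hz =>
    (hf.comp (Continuous.prodMk_right _).continuousOn fun _ a => ⟨ht, a⟩).continuousAt hz
  have an : ∀ i, ∀ z ∈ ball (0 : ℂ) A.R,
      AnalyticAt ℂ (deriv fun w => chartAt ℂ (k i) (pt A i w)) z := fun i z hz =>
    ((ok i).an (cmp_chart (k i)) (mem_tgt.2 hz) (hk i (map_tgt hz)).2).deriv
  refine ⟨_, iInter_mem.2 fun i => hV (k i), g, b, _, ad, fun i j => ?_, fun i => ?_⟩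
  · have cc : ContinuousOn (fun p : T × ℂ => c (t₀, k i) (t₀, k j) (p.1, pt A i p.2))
        ((⋂ i, V (k i)) ×ˢ A.O i j) := (h _ _).2.2.1.comp ((cp i).mono fun _ a => ⟨a.1, a.2.1⟩)
      fun p a => ⟨m _ a.1 i _ (map_tgt a.2.1), m _ a.1 j _ a.2.2⟩
    refine cc.congr fun p a => eq_of_ev ((ad _ a.1).fr.cc.an a.2).continuousAt
      (sl cc a.1 (O_nhds a.2)) ?_
    filter_upwards [(ad _ a.1).fr.tr i j _ a.2, (ad _ a.1).fr.nd (i := i) a.2.1, ev_O a.2,
      (ev_A a.2.1).1 ((h (t₀, k i) (t₀, k j)).2.2.2 _ _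
        ⟨m _ a.1 i _ (map_tgt a.2.1), m _ a.1 j _ a.2.2⟩).2] with w e1 e2 e3 e4
    exact lcancel e2 (by rw [← e1, pt_tr e3, e4.1])
  · have cc : ContinuousOn (fun p : T × ℂ => deriv (fun w => chartAt ℂ (k i) (pt A i w)) p.2 •
        a (t₀, k i) (p.1, pt A i p.2)) ((⋂ i, V (k i)) ×ˢ ball 0 A.R) :=
      ContinuousOn.smul (fun p a => ((an i _ a.2).continuousAt.comp continuousAt_snd).continuousWithinAt)
        ((h _ (t₀, k i)).2.1.comp (cp i) fun p a => m _ a.1 i _ (map_tgt a.2))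
    refine cc.congr fun p a => eq_of_ev ((ad _ a.1).hol.an a.2 i).continuousAt
      (sl cc a.1 (isOpen_ball.mem_nhds a.2)) ?_
    filter_upwards [(ad _ a.1).th i _ a.2, (ad _ a.1).fr.nd (i := i) a.2, ev_ball a.2,
      (ev_A a.2).1 ((h (t₀, k i) (t₀, k i)).2.2.2 _ _
        ⟨m _ a.1 i _ (map_tgt a.2), m _ a.1 i _ (map_tgt a.2)⟩).2] with w e1 e2 e3 e4
    refine lcancel e2 ?_
    rw [e1, Matrix.mul_smul, e4.2, ← Matrix.smul_mul, smul_smul, mul_comm,
      (ok i).jc_eq (cmp_chart (k i)) (mem_tgt.2 e3) (hk i (map_tgt e3)).2]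
    rfl

/-- a continuous family of cocycles gives a family of Higgs bundles -/
theorem fam_of_ad (ok : Ok A) {E : T → Higgs C n D} {g : T → Cy A (Mn n)} {a σ : T → Fm A (Mn n)}
    (ad : ∀ t, Ad A (E t) (g t) (a t) (σ t))
    (hg : ∀ i j, ContinuousOn (fun p : T × ℂ => g p.1 i j p.2) (univ ×ˢ A.O i j))
    (ha : ∀ i, ContinuousOn (fun p : T × ℂ => a p.1 i p.2) (univ ×ˢ ball 0 A.R)) : Fam E := by
  choose k hk _ using A.cov
  refine ⟨fun i => univ ×ˢ ((A.e (k i.2)).source ∩ (chartAt ℂ i.2).source),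
    fun i t y => σ t (k i.2) (A.e (k i.2) y), fun i q => deriv (fun w => A.e (k i.2)
      ((chartAt ℂ i.2).symm w)) (chartAt ℂ i.2 q.2) • a q.1 (k i.2) (A.e (k i.2) q.2),
    fun i j q => g q.1 (k i.2) (k j.2) (A.e (k i.2) q.2), fun i j => ?_⟩
  have cp : ContinuousOn (fun q : T × C => (q.1, A.e (k i.2) q.2))
      (univ ×ˢ ((A.e (k i.2)).source ∩ (chartAt ℂ i.2).source)) :=
    continuousOn_fst.prodMk ((A.e _).continuousOn.comp continuousOn_snd fun _ a => a.2.1)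
  have src : ∀ y ∈ (A.e (k i.2)).source ∩ (chartAt ℂ i.2).source,
      (chartAt ℂ i.2).symm (chartAt ℂ i.2 y) ∈ (A.e (k i.2)).source := fun y a => by
    rw [(chartAt ℂ i.2).left_inv a.2]; exact a.1
  have cd : ContinuousOn (fun q : T × C => deriv (fun w => A.e (k i.2)
      ((chartAt ℂ i.2).symm w)) (chartAt ℂ i.2 q.2))
      (univ ×ˢ ((A.e (k i.2)).source ∩ (chartAt ℂ i.2).source)) := fun q a =>
    ((((cmp_chart i.2).an (ok _) ((chartAt ℂ i.2).map_source a.2.2)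
      (src _ a.2)).deriv.continuousAt.comp ((chartAt ℂ i.2).continuousAt a.2.2)).comp
        continuousAt_snd).continuousWithinAt
  refine ⟨prod_mem_nhds univ_mem (inter_mem ((A.e _).open_source.mem_nhds (hk _))
    (chart_source_mem_nhds ℂ _)), cd.smul
      ((ha (k i.2)).comp cp fun _ a => ⟨trivial, map_src a.2.1⟩),
    (hg (k i.2) (k j.2)).comp (cp.mono inter_subset_left) fun _ a =>
      ⟨trivial, mem_O a.1.2.1 a.2.2.1⟩, fun t x ⟨⟨_, b1, b2⟩, _, b3, _⟩ => ?_⟩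
  · have hz := map_src b1
    have ex : pt A (k i.2) (A.e (k i.2) x) = x := (A.e _).left_inv b1
    refine ⟨un_iff.2 ?_, ?_⟩
    · have := ((ok (k i.2)).un (F := fun y => ((E t).g x y)⁻¹ * σ t (k i.2) (A.e (k i.2) y))
        (mem_tgt.2 hz)).1 (((ad t).fr.un (i := k i.2) hz).congr ((ev_ball hz).mono fun w e => by
          simp only [gam, ex, rinv e]))
      rwa [show (A.e (k i.2)).symm (A.e (k i.2) x) = x from ex] at this
    · rw [← ex]
      refine (ev_A hz).2 ?_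
      filter_upwards [(ad t).fr.tr _ _ _ (mem_O b1 b3), (ad t).th _ _ hz, ev_ball hz,
        pn ((contAt_symm hz).eventually ((chartAt ℂ i.2).open_source.mem_nhds
          (show pt A _ _ ∈ _ from ex.symm ▸ b2)))] with w e1 e2 e3 e4
      have e5 := (cmp_chart i.2).jc_eq (ok (k i.2)) ((chartAt ℂ i.2).map_source e4)
        (src _ ⟨map_tgt e3, e4⟩)
      rw [(chartAt ℂ i.2).left_inv e4, rinv e3] at e5
      simp only [rinv e3]
      refine ⟨e1, ?_⟩
      rw [Matrix.mul_smul, e2, ← Matrix.smul_mul, smul_smul, mul_comm, ← e5]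
      rfl

end Vale.Agent.P275T
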