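import Vale.Agent.P275T.Ad
import Vale.Agent.P275TD.Loc
import Vale.Agent.P275Z.All

/-!
# P275, moduli topology: the nonabelian Hodge correspondence is a homeomorphism
-/

set_option linter.unusedSectionVars false

open scoped Matrix.Norms.Operator Topology ContDiff Manifold
open Filter Set Metric CategoryTheory
open Vale.Agent.P275ST (Higgs deg)
open Vale.Agent.P275SF (NAH XB)
open Vale.Agent.P275GC Vale.Agent.P275AD

noncomputable section

namespace Vale.Agent.P275T

section
variable {C : Type} [TopologicalSpace C] [ChartedSpace ℂ C] {n : ℕ} {D : C →₀ ℤ}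

/-- families give continuous maps -/
theorem Fam.cont {T : Type} [TopologicalSpace T] {E : T → Higgs C n D} (h : Fam E) :
    Continuous (Y := XD C n D) fun t => Quot.mk _ (E t) :=
  continuous_generateFrom_iff.2 fun _ hW => hW T E h

/-- maps out of `X` are continuous if they are so on families -/
theorem cont_of_fam {Y : Type} [TopologicalSpace Y] {f : XD C n D → Y}
    (h : ∀ (T : Type) [TopologicalSpace T] (E : T → Higgs C n D), Fam E →
      Continuous fun t => f (Quot.mk _ (E t))) : Continuous f :=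
  continuous_def.2 fun _ hU => TopologicalSpace.GenerateOpen.basic _
    fun T _ E hE => hU.preimage (h T E hE)

end

theorem nu_cont {S : P275Z.Sit} {ν : XD S.C S.n S.D ≃ XB S.g S.n (deg S.D)}
    (hν : ∀ E ρ, NAH S.M S.ℓ E ρ ↔ ν (Quot.mk _ E) = ρ.pt) : Continuous ν ∧ Continuous ν.symm := by
  refine ⟨cont_of_fam fun T _ E hE => continuous_iff_continuousAt.2 fun t => ?_,
    P275TD.symm_cont (X := XD S.C S.n S.D) (pt := Quot.mk _) hν
      fun A ok T _ V t E g a σ o m ad cg ca => ?_⟩
  · obtain ⟨U, hU, H⟩ := hE.ad t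
    obtain ⟨A, c, r, hr, -, -, k⟩ := exists_at_sub U hU
    have ok : Ok A := fun i => by rw [(k i).1]; exact cmp_dch _ _
    obtain ⟨V, hV, g, a, σ, ad, cg, ca⟩ := H A ok fun i => ⟨_, (k i).2⟩
    exact P275TD.nu_cont (X := XD S.C S.n S.D) (pt := Quot.mk _) hν ok hV ad cg ca
  · have c : ContinuousOn (fun p : V × ℂ => (p.1.1, p.2)) univ :=
      ((continuous_subtype_val.comp continuous_fst).prodMk continuous_snd).continuousOn
    have := (fam_of_ad (E := fun s : V => E s) ok (fun s => ad s s.2)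
      (fun i j => (cg i j).comp (c.mono (subset_univ _)) fun p a => ⟨p.1.2, a.2⟩)
      fun i => (ca i).comp (c.mono (subset_univ _)) fun p a => ⟨p.1.2, a.2⟩).cont
    exact (continuousOn_iff_continuous_domRestrict.2 this).continuousAt (o.mem_nhds m)

theorem pw : PW := by
  intro C _ _ _ _ _ _ p x₀
  obtain ⟨h0, h1⟩ := P275Z.pw C p x₀
  refine ⟨h0, fun g n D M hg hn hc =>
    ⟨(h1 g n D M hg hn hc).1, (h1 g n D M hg hn hc).2.1, fun ℓ hl => ?_⟩⟩
  have nu : P275Z.NUA := fun _ T => P275NU.nu_ok T.std (P275KG.kur_ok T.std)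
  obtain ⟨h, hp, hh, H⟩ := @P275TA.asm_of C _ _ _ _ _ _ p x₀ g n D P275Z.pw
    (P275NB.brg' P275RL.rhf_ok nu) (P275NB.nahb' P275RL.rhf_ok nu P275HN.hitx) M hg hn hc
    (XD C n D).str fun ℓ hl _ hν => nu_cont (S := P275TA.sit M hg hn hc hl) hν
  obtain ⟨ν, e, k⟩ := H ℓ hl
  exact ⟨TopCat.ofHom (X := XD C n D) h, TopCat.isoOfHomeo (X := XD C n D) ν, hp,
    fun E => ⟨hh E, e E⟩, k⟩

end Vale.Agent.P275T
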