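import Vale.Agent.P275SF.Stmt

/-!
P275, statement with the moduli space `X` of stable Higgs bundles as a topological space.
All other notions are those of `P275ST/Geo` and `P275SF/Stmt`.
-/

open scoped Manifold ContDiff Topology
open Filter CategoryTheory
open Vale.Agent.P275ST hiding Rep XB IsReg NAH ZarLE
open Vale.Agent.P275SF hiding PW

noncomputable section

namespace Vale.Agent.P275T

section fam

variable {C : Type} [TopologicalSpace C] [ChartedSpace ℂ C] {n : ℕ} {D : C →₀ ℤ}

/-- `E` is a continuous family of Higgs bundles: each point `i` of `T × C` has a (small)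
neighbourhood `N i` with holomorphic frames `s i t` of the bundles `E t`, such that the transition
matrices `c i j` and the matrix `a i` of the Higgs field (in the chart at `i.2`) are continuous. -/
def Fam {T : Type} [TopologicalSpace T] (E : T → Higgs C n D) : Prop :=
  ∃ (N : T × C → Set (T × C)) (s : T × C → T → C → Mx n n) (a : T × C → T × C → Mx n n)
    (c : T × C → T × C → T × C → Mx n n), ∀ i j, N i ∈ 𝓝 i ∧ ContinuousOn (a i) (N i) ∧
    ContinuousOn (c i j) (N i ∩ N j) ∧ ∀ t x, (t, x) ∈ N i ∩ N j →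
      (∃ G, HolExt (fun z => (loc x ((E t).g x) z)⁻¹ * loc x (s i t) z) G (ctr x) ∧
        (G (ctr x)).det ≠ 0) ∧ ∀ᶠ y in 𝓝[≠] x, s j t y = s i t y * c i j (t, y) ∧
        s i t y * a i (t, y) = (jac i.2 (chartAt ℂ i.2 y) • (E t).θ y) * s i t y

variable (C n D) in
/-- The moduli space `X` of stable Higgs bundles: the isomorphism classes, with the finest
topology for which continuous families give continuous maps. -/
def XD : TopCat.{0} := @TopCat.of (Quot (Higgs.Iso (n := n) (D := D))) (.generateFrom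
  {W | ∀ (T : Type) [TopologicalSpace T] (E : T → Higgs C n D), Fam E →
    IsOpen ((fun t => Quot.mk _ (E t)) ⁻¹' W)})

end fam

/-- **`P = W` for `SL_n`.** -/
def PW : Prop :=
  ∀ (C : Type) [TopologicalSpace C] [T2Space C] [CompactSpace C] [ConnectedSpace C]
    [ChartedSpace ℂ C] [IsManifold 𝓘(ℂ) ω C] (p : C) (x₀ : Pc p),
    (∃ g, Nonempty (Marking g p x₀)) ∧
    ∀ (g n : ℕ) (D : C →₀ ℤ) (M : Marking g p x₀), 2 ≤ g → 2 ≤ n → IsCoprime (n : ℤ) (deg D) →
      (∃ ℓ, IsTriv D p ℓ) ∧ Nonempty (CptB g n (deg D)) ∧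
      ∀ ℓ, IsTriv D p ℓ → ∃ (h : XD C n D ⟶ BT C n) (ν : XD C n D ≅ XT g n (deg D)),
        IsProperMap h.hom.toFun ∧ (∀ E : Higgs C n D, E.Hit (h.hom.toFun (Quot.mk _ E)) ∧
          ∀ ρ, NAH M ℓ E ρ ↔ ν.hom.hom.toFun (Quot.mk _ E) = ρ.pt) ∧
        PEqW (ZB C n) (dimR g n) (ν.inv ≫ h) CptB.j

end Vale.Agent.P275T
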